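import Vale.Agent.P239.Bdl.B10

set_option linter.all false
set_option linter.unusedSectionVars false

/-!
The zeroth L2-Betti number of a path connected space with an action of an infinite group.
-/

namespace Vale.Agent.P239

open scoped ENNReal InnerProductSpace Matrix
open Matrix

section bzero

variable (G : Type*) [Group G] (X : Type*) [TopologicalSpace X] [MulAction G X]
  [ContinuousConstSMul G X]

theorem homol_zero_eq :
    vnDim G (Homol G X 0) =
      homDim (tr (G := G)) lam (Fin.elim0 : Fin 0 → Sing X 0 → Sing X 0)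
        (face (X := X) (n := 0)) := by
  rw [vnDim_eq_dimOf]
  change quoDim (tr (G := G)) (cyc G X 0) (LinearMap.range (bd G X 0)) = _
  rw [← quoDim_comap _ (rel G X 0).mkQ (Submodule.mkQ_surjective _)]
  rw [homDim]
  congr 1
  · ext z
    rw [Submodule.mem_comap, Submodule.mem_comap]
    have h0 : bdry (VN G) (Fin.elim0 : Fin 0 → Sing X 0 → Sing X 0) z = 0 := by
      rw [bdry, Finsupp.linearCombination_apply]
      simp
    rw [h0]
    exact iff_of_true trivial (Submodule.zero_mem _)
  · ext z
    rw [Submodule.mem_comap, Submodule.mem_sup]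
    constructor
    · rintro ⟨w, hw⟩
      obtain ⟨w, rfl⟩ := Submodule.mkQ_surjective _ w
      rw [← bdry_eq] at hw
      refine ⟨_, ⟨w, rfl⟩, z - bdry (VN G) (face (X := X) (n := 0)) w, ?_, by abel⟩
      rw [tensorRel_eq, ← Submodule.Quotient.mk_eq_zero, Submodule.Quotient.mk_sub]
      exact sub_eq_zero.mpr hw.symm
    · rintro ⟨_, ⟨w, rfl⟩, y, hy, rfl⟩
      refine ⟨(rel G X (0 + 1)).mkQ w, ?_⟩
      rw [← bdry_eq, map_add]
      have : (rel G X 0).mkQ y = 0 := by
        rw [Submodule.mkQ_apply, Submodule.Quotient.mk_eq_zero]; exact hy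
      rw [this, add_zero]

theorem bettiTwo_zero_eq : bettiTwo G X 0 = l2Betti G X 0 := by
  rw [l2Betti, homol_zero_eq]
  exact homDim_NG _ _

variable {G X}

/-- a square summable function invariant under left translation by an infinite group vanishes -/
theorem eq_zero_of_lam [Infinite G] (v : L2 G) (h : ∀ g : G, (lam g).op v = v) : v = 0 := by
  have hc : ∀ x, v x = v 1 := by
    intro x
    have h1 := congrArg (fun w : L2 G => w x) (h x)
    simp only [lam_op_apply, inv_mul_cancel] at h1
    exact h1.symm
  have hs : Summable fun _ : G => ‖v 1‖ ^ 2 := by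
    have := summable_norm_sq v
    simpa only [hc] using this
  have h1 : ‖v 1‖ ^ 2 = 0 := by
    by_contra hne
    exact absurd ((summable_const_iff _).1 hs) hne
  have h2 : v 1 = 0 := by simpa using h1
  refine lp.ext (funext fun x => ?_)
  rw [hc x, h2]
  rfl

/-- the 0-simplices of a path connected space are homologous -/
theorem ch_sub_mem [PathConnectedSpace X] (s t : Sing X 0) :
    ch G s - ch G t ∈ LinearMap.range (bd G X 0) := by
  obtain ⟨γ⟩ := PathConnectedSpace.joined (vtx 0 t) (vtx 0 s)
  have hI : ∀ u : stdSimplex ℝ (Fin 2), u 1 ∈ unitInterval := fun u =>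
    ⟨stdSimplex.zero_le u 1, stdSimplex.le_one u 1⟩
  let c : C(stdSimplex ℝ (Fin 2), unitInterval) :=
    ⟨fun u => ⟨u 1, hI u⟩,
      Continuous.subtype_mk ((continuous_apply 1).comp continuous_subtype_val) _⟩
  let e : Sing X 1 := ⟨fun u => γ (c u), γ.continuous.comp c.continuous⟩
  refine ⟨ch G e, ?_⟩
  rw [bd_ch_zero]
  have h0 : face 0 e = s := by
    rw [← pt_vtx (face 0 e), vtx_face, ← pt_vtx s]
    congr 1
    change γ (c (stdSimplex.vertex _)) = _
    have : c (stdSimplex.vertex (Fin.succAbove 0 0)) = 1 := by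
      apply Subtype.ext
      change (stdSimplex.vertex (S := ℝ) (Fin.succAbove (0 : Fin 2) 0)) 1 = (1 : ℝ)
      simp
    rw [this, γ.target]
  have h1 : face 1 e = t := by
    rw [← pt_vtx (face 1 e), vtx_face, ← pt_vtx t]
    congr 1
    change γ (c (stdSimplex.vertex _)) = _
    have : c (stdSimplex.vertex (Fin.succAbove 1 0)) = 0 := by
      apply Subtype.ext
      change (stdSimplex.vertex (S := ℝ) (Fin.succAbove (1 : Fin 2) 0)) 1 = (0 : ℝ)
      simp
    rw [this, γ.source]
  rw [h0, h1]

theorem l2Betti_zero [Infinite G] [PathConnectedSpace X] : l2Betti G X 0 = 0 := by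
  obtain ⟨x₀⟩ := (inferInstance : Nonempty X)
  let B : Submodule (VN G) (cyc G X 0) := (LinearMap.range (bd G X 0)).submoduleOf (cyc G X 0)
  let q : (Fin 1 → VN G) →ₗ[VN G] Homol G X 0 :=
    Fintype.linearCombination (VN G) fun _ => B.mkQ ⟨ch G (pt x₀), trivial⟩
  have hqa : ∀ k, q k = B.mkQ ⟨k 0 • ch G (pt x₀), trivial⟩ := by
    intro k
    rw [show q k = ∑ i, k i • B.mkQ ⟨ch G (pt x₀), trivial⟩ from
      Fintype.linearCombination_apply _ _ _, Fin.sum_univ_one, ← map_smul]
    rfl
  have hq0 : ∀ z z' : Chain G X 0, z - z' ∈ LinearMap.range (bd G X 0) →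
      B.mkQ ⟨z, trivial⟩ = B.mkQ ⟨z', trivial⟩ := by
    intro z z' h
    rw [Submodule.mkQ_apply, Submodule.mkQ_apply, Submodule.Quotient.eq]
    exact h
  have hsurj : Function.Surjective q := by
    intro m
    obtain ⟨⟨z, hz⟩, rfl⟩ := Submodule.mkQ_surjective B m
    have key : ∃ a : VN G, z - a • ch G (pt x₀) ∈ LinearMap.range (bd G X 0) := by
      have := ch_span z
      induction this using Submodule.span_induction with
      | mem x hx =>
        obtain ⟨s, rfl⟩ := hx
        exact ⟨1, by rw [one_smul]; exact ch_sub_mem _ _⟩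
      | zero => exact ⟨0, by rw [zero_smul, sub_zero]; exact Submodule.zero_mem _⟩
      | add x y _ _ hx hy =>
        obtain ⟨a, ha⟩ := hx trivial
        obtain ⟨b, hb⟩ := hy trivial
        refine ⟨a + b, ?_⟩
        have : x + y - (a + b) • ch G (pt x₀) =
            (x - a • ch G (pt x₀)) + (y - b • ch G (pt x₀)) := by
          rw [add_smul]; abel
        rw [this]
        exact Submodule.add_mem _ ha hb
      | smul c x _ hx =>
        obtain ⟨a, ha⟩ := hx trivial
        refine ⟨c * a, ?_⟩
        rw [mul_smul, ← smul_sub]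
        exact Submodule.smul_mem _ _ ha
    obtain ⟨a, ha⟩ := key
    refine ⟨fun _ => a, ?_⟩
    rw [hqa]
    exact (hq0 _ _ ha).symm
  let R : Submodule (VN G) (Fin 1 → VN G) := LinearMap.ker q
  have hR : ∀ g : G, (fun _ => lam g - 1 : Fin 1 → VN G) ∈ R := by
    intro g
    change q _ = 0
    rw [hqa, ← map_zero B.mkQ]
    refine hq0 _ 0 ?_
    rw [sub_zero, sub_smul, one_smul, ← ch_smul]
    exact ch_sub_mem _ _
  have hU : UU (⊤ : Submodule (VN G) (Fin 1 → VN G)) ≤ UU R := by
    intro v hv
    have h1 : v - (UU R).starProjection v = 0 := by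
      have h2 := fun g => sum_op_eq_zero R (u := v - (UU R).starProjection v) (by
        intro w hw
        rw [← inner_conj_symm, Submodule.starProjection_inner_eq_zero _ _ hw, map_zero]) (hR g)
      have h3 : (v - (UU R).starProjection v) 0 = 0 := by
        refine eq_zero_of_lam _ fun g => ?_
        have h4 := h2 g
        rw [Fin.sum_univ_one, map_sub, map_one] at h4
        exact sub_eq_zero.1 h4
      ext1 i
      rw [Subsingleton.elim i 0, h3]
      rfl
    rw [sub_eq_zero.1 h1]
    exact Submodule.starProjection_apply_mem _ _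
  refine vnDim_of_UU_le R ⊤ le_top hU (q.comp (Submodule.subtype ⊤)) ?_ ?_
  · intro m
    obtain ⟨k, hk⟩ := hsurj m
    exact ⟨⟨k, trivial⟩, hk⟩
  · intro z hz
    exact hz

/-- The zeroth L2-Betti number of a path connected space on which an infinite group acts is
zero. -/
theorem bettiTwo_zero [Infinite G] [PathConnectedSpace X] : bettiTwo G X 0 = 0 := by
  rw [bettiTwo_zero_eq, l2Betti_zero]

end bzero

end Vale.Agent.P239
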