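import Vale.Agent.P239.H260.Main
import Vale.Agent.P239.H269.BZero

set_option linter.all false

/-!
The group of a contractible regular cover of a closed manifold of positive dimension is infinite.
-/

namespace Vale.Agent.P239.H269

open Metric Set Topology
open Vale.Agent.P239 Vale.Agent.P239.M Vale.Agent.P239.H260

/-- A compact contractible metric space is not locally Euclidean of positive dimension. -/
theorem not_compact {n : ℕ} (hn : 0 < n) {X : Type*} [MetricSpace X] [CompactSpace X]
    [ContractibleSpace X]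
    (hch : ∀ x : X, ∃ β : (Fin n → ℝ) → X, IsOpenEmbedding β ∧ β 0 = x) : False := by
  obtain ⟨x₀⟩ := (inferInstance : Nonempty X)
  obtain ⟨η, hη, h⟩ := pkg_of_charts hn hch univ isCompact_univ
  obtain ⟨κ₀, hκ₀, κ₁, hκ₁, Θ, h1, h2, h3, h4, h5, h6⟩ := h 0 (Nat.zero_le _) 1 one_pos
  obtain ⟨A', -, -, hfill⟩ := fillS (ZMod 2) X univ isCompact_univ
  obtain ⟨κ, hκ, hfill⟩ := hfill κ₁ hκ₁
  obtain ⟨μ, hμ1, hμ2, hμ3⟩ := h6 κ hκ
  -- the fundamental chain is a cycle
  have hbd : M.bd μ = 0 := by
    have hlen : Sup (fun l => l.length = n) (M.bd μ) :=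
      Sup.bd (fun l l' _ hl hP => by have := hP.1; omega) hμ1
    rw [← Finsupp.support_eq_empty, Finset.eq_empty_iff_forall_notMem]
    intro l hl
    have e1 := hlen l hl
    have e2 := hμ2 l hl
    cases l with
    | nil => simp at e1; omega
    | cons x l =>
      have e3 := e2 x List.mem_cons_self x (mem_univ x)
      rw [dist_self] at e3
      linarith
  obtain ⟨e, he, hes⟩ := hfill (n + 1) μ hbd (fun l hl => ⟨(hμ1 l hl).1, (hμ1 l hl).2,
    fun x _ => mem_univ x⟩)
  have h7 : M.ext (Θ [x₀]) μ = 1 := hμ3 x₀ (mem_univ x₀)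
  rw [← he, ext_bdL, ext_congr (v := fun _ => (0 : ZMod 2)) hes] at h7
  · rw [Finsupp.linearCombination_apply] at h7
    simp at h7
  · rintro b ⟨hb1, hb2, hb3⟩
    have h8 := h5 [x₀] (fun x _ => mem_univ x) (fun x hx y hy => by
      rw [List.mem_singleton] at hx hy
      rw [hx, hy, dist_self]; exact hκ₀) (by simp) b hb2
    rw [h8]
    change M.ext (fun a' => Θ a' b) (bdL (ZMod 2) [x₀]) = 0
    rw [bdL, bdL, map_zero, sub_zero, Finsupp.linearCombination_single, h1, smul_zero]

/-- The deck group of a contractible regular cover of a closed manifold of positive dimension is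
infinite. -/
theorem infinite_of_cover {n : ℕ} (hn : 1 ≤ n) {M X Γ : Type*} [TopologicalSpace M] [T2Space M]
    [CompactSpace M] [ChartedSpace (EuclideanSpace ℝ (Fin n)) M] [TopologicalSpace X]
    [ContractibleSpace X] [Group Γ] [MulAction Γ X] {p : X → M}
    (hp : IsQuotientCoveringMap p Γ) : Infinite Γ := by
  by_contra hfin
  rw [not_infinite_iff_finite] at hfin
  have hM : SecondCountableTopology M :=
    ChartedSpace.secondCountable_of_sigmaCompact (EuclideanSpace ℝ (Fin n)) M
  have hm : TopologicalSpace.MetrizableSpace X := metrizable_of_cover hp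
  letI : MetricSpace X := TopologicalSpace.metrizableSpaceMetric X
  obtain ⟨hX, B, hB, hcov⟩ := exists_cocomp hp
  have hcs : ContinuousConstSMul Γ X := hp.toContinuousConstSMul
  have hc : CompactSpace X := by
    refine ⟨?_⟩
    have : (univ : Set X) = ⋃ g : Γ, (fun x => g • x) '' B := by
      refine (eq_univ_of_forall fun x => ?_).symm
      obtain ⟨g, y, hy, rfl⟩ := hcov x
      exact mem_iUnion.2 ⟨g, y, hy, rfl⟩
    rw [this]
    exact isCompact_iUnion fun g => hB.image (continuous_const_smul g)
  exact not_compact (by omega : 0 < n) (chart_of_cover hp n)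

/-- The zeroth L2-Betti number of the contractible regular cover of a closed manifold of positive
dimension. -/
theorem bettiTwo_zero_of_cover {n : ℕ} (hn : 1 ≤ n) {M X Γ : Type*} [TopologicalSpace M]
    [T2Space M] [CompactSpace M] [ChartedSpace (EuclideanSpace ℝ (Fin n)) M] [TopologicalSpace X]
    [ContractibleSpace X] [Group Γ] [MulAction Γ X] [ContinuousConstSMul Γ X]
    (p : X → M) (hp : IsQuotientCoveringMap p Γ) : bettiTwo Γ X 0 = 0 := by
  have := infinite_of_cover hn hp
  exact bettiTwo_zero

end Vale.Agent.P239.H269
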